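import Vale.Agent.P142.Dom

/-!
P142 (Brennan): the conjecture for all univalent functions on the unit disc that extend
meromorphically across every point of the unit circle.
-/

namespace Vale.Agent.Results.P142.MeromorphicBoundary

open MeasureTheory Metric Set

/-- Let `f` be holomorphic and injective on the open unit disc and meromorphic at every point of
the unit circle. Then `∫ |f'| ^ t dA` over the disc is finite for all `-2 < t < 2/3`, and for the
inverse `φ` of `f` on the domain `W = f (D)` the integral `∫ |φ'| ^ s dA` over `W` is finite for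
all `4/3 < s < 4`. -/
theorem result : ∀ f : ℂ → ℂ, DifferentiableOn ℂ f (ball 0 1) → InjOn f (ball 0 1) →
    (∀ ζ : ℂ, ‖ζ‖ = 1 → MeromorphicAt f ζ) →
      (∀ t : ℝ, -2 < t → t < 2 / 3 →
        IntegrableOn (fun z : ℂ => ‖deriv f z‖ ^ t) (ball 0 1) volume) ∧
      (∀ φ : ℂ → ℂ, (∀ z ∈ ball (0 : ℂ) 1, φ (f z) = z) → ∀ s : ℝ, 4 / 3 < s → s < 4 →
        IntegrableOn (fun w : ℂ => ‖deriv φ w‖ ^ s) (f '' ball 0 1) volume) := by
  intro f hd hinj hf
  exact ⟨fun t h1 h2 => Vale.Agent.P142.brennan_meromorphic hd hinj hf h1 h2,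
    fun φ hφ s h1 h2 => Vale.Agent.P142.brennan_domain hd hinj hf hφ h1 h2⟩

end Vale.Agent.Results.P142.MeromorphicBoundary
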