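import Vale.Agent.P142.Dom
import Vale.Agent.P142.Means
import Vale.Agent.P142.Lim

/-!
P142 (Brennan): the conjecture and the sharp integral means bound for all univalent functions on
the unit disc that extend meromorphically across every point of the unit circle.
-/

namespace Vale.Agent.Results.P142.MeromorphicMeans

open MeasureTheory Metric Set

/-- Let `f` be holomorphic and injective on the open unit disc and meromorphic at every point of
the unit circle. Then `∫ |f'| ^ t dA` over the disc is finite for all `-2 < t < 2/3`; for the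
inverse `φ` of `f` on the domain `W = f (D)` the integral `∫ |φ'| ^ s dA` over `W` is finite for
all `4/3 < s < 4`; and for every `t ≤ -2` the integral means of `|f'| ^ t` over the circles
`|z| = r` are at most `C (1 - r) ^ (-(|t| - 1))` (for `t = -2`: at most `C / (1 - r)`), so that
`β_f(t) ≤ |t| - 1`, where `β_f(t)` is the limsup of `log M_t[f'](r) / log (1 / (1 - r))`. -/
theorem result : ∀ f : ℂ → ℂ, DifferentiableOn ℂ f (ball 0 1) → InjOn f (ball 0 1) →
    (∀ ζ : ℂ, ‖ζ‖ = 1 → MeromorphicAt f ζ) →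
      (∀ t : ℝ, -2 < t → t < 2 / 3 →
        IntegrableOn (fun z : ℂ => ‖deriv f z‖ ^ t) (ball 0 1) volume) ∧
      (∀ φ : ℂ → ℂ, (∀ z ∈ ball (0 : ℂ) 1, φ (f z) = z) → ∀ s : ℝ, 4 / 3 < s → s < 4 →
        IntegrableOn (fun w : ℂ => ‖deriv φ w‖ ^ s) (f '' ball 0 1) volume) ∧
      (∀ t : ℝ, t ≤ -2 → ∃ C : ℝ, ∀ r : ℝ, 0 < r → r < 1 →
        IntervalIntegrable (fun θ : ℝ => ‖deriv f (r * Complex.exp (θ * Complex.I))‖ ^ t)
          volume (-Real.pi) Real.pi ∧
        1 / (2 * Real.pi) *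
            ∫ θ in (-Real.pi)..Real.pi, ‖deriv f (r * Complex.exp (θ * Complex.I))‖ ^ t ≤
          C * (1 / (1 - r)) ^ (|t| - 1)) ∧
      (∀ t : ℝ, t ≤ -2 →
        Filter.limsup (fun r : ℝ => ((Real.log (1 / (2 * Real.pi) *
            ∫ θ in (-Real.pi)..Real.pi, ‖deriv f (r * Complex.exp (θ * Complex.I))‖ ^ t) /
              Real.log (1 / (1 - r)) : ℝ) : EReal)) (nhdsWithin 1 (Iio 1)) ≤
          ((|t| - 1 : ℝ) : EReal)) := by
  intro f hd hinj hf
  suffices main : ∀ t : ℝ, t ≤ -2 → ∃ C : ℝ, ∀ r : ℝ, 0 < r → r < 1 →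
        IntervalIntegrable (fun θ : ℝ => ‖deriv f (r * Complex.exp (θ * Complex.I))‖ ^ t)
          volume (-Real.pi) Real.pi ∧
        1 / (2 * Real.pi) *
            ∫ θ in (-Real.pi)..Real.pi, ‖deriv f (r * Complex.exp (θ * Complex.I))‖ ^ t ≤
          C * (1 / (1 - r)) ^ (|t| - 1) by
    refine ⟨fun t h1 h2 => Vale.Agent.P142.brennan_meromorphic hd hinj hf h1 h2,
      fun φ hφ s h1 h2 => Vale.Agent.P142.brennan_domain hd hinj hf hφ h1 h2, main, ?_⟩
    intro t ht
    obtain ⟨C, hC⟩ := main t ht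
    refine Vale.Agent.P142.limsup_means (C := C) ?_ ?_ (fun r h0 h1 => (hC r h0 h1).2)
    · rw [abs_of_nonpos (by linarith : t ≤ 0)]; linarith
    · intro r _ _
      have hpi : -Real.pi ≤ Real.pi := by linarith [Real.pi_pos]
      have := Real.pi_pos
      refine mul_nonneg (by positivity) (intervalIntegral.integral_nonneg hpi ?_)
      intro θ _
      exact Real.rpow_nonneg (norm_nonneg _) _
  intro t ht
  obtain ⟨C, hC⟩ := Vale.Agent.P142.means hd hinj hf ht
  refine ⟨1 / (2 * Real.pi) * C, fun r hr0 hr1 =>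
    ⟨(Vale.Agent.P142.cont_deriv hd hinj t hr0 hr1).intervalIntegrable _ _, ?_⟩⟩
  have h1 : (1 / (1 - r)) ^ (|t| - 1) = (1 - r) ^ (t + 1) := by
    have hr : 0 < 1 - r := by linarith
    rw [abs_of_nonpos (by linarith : t ≤ 0), one_div, Real.inv_rpow hr.le, ← Real.rpow_neg hr.le]
    congr 1
    ring
  rw [h1, mul_assoc]
  have := Real.pi_pos
  exact mul_le_mul_of_nonneg_left (hC r hr0 hr1) (by positivity)

end Vale.Agent.Results.P142.MeromorphicMeans
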